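import Vale.Agent.P235.H786.TDefs

/-!
# [CONN]: a connected set of `G` is connected inside a torso (helper535)
-/

set_option autoImplicit false

namespace Vale.Agent.P235.H535

open SimpleGraph Vale.Agent.P235 Vale.Agent.P235.H134 Vale.Agent.P235.H750 Vale.Agent.P235.H786

variable {V ι : Type} {G : SimpleGraph V} {T : SimpleGraph ι} {B : ι → Set V}

/-- two bags of a vertex outside `B t` are joined by a walk which avoids `t` -/
theorem walk_avoid (h : TDec G T B) {t : ι} {v : V} (hv : v ∉ B t) {r r' : ι} (hr : v ∈ B r)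
    (hr' : v ∈ B r') : ∃ p : T.Walk r r', t ∉ p.support := by
  have key : ∀ (a b : {t | v ∈ B t}) (w : (T.induce {t | v ∈ B t}).Walk a b),
      ∃ p : T.Walk a.1 b.1, t ∉ p.support := by
    intro a b w
    induction w with
    | @nil a =>
      refine ⟨Walk.nil, ?_⟩
      simp only [Walk.support_nil, List.mem_singleton]
      intro h1
      exact hv (h1 ▸ a.2)
    | @cons a b c hab w ih =>
      obtain ⟨p, hp⟩ := ih
      have hab' : T.Adj a.1 b.1 := hab
      refine ⟨Walk.cons hab' p, ?_⟩
      simp only [Walk.support_cons, List.mem_cons, not_or]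
      exact ⟨fun h1 => hv (h1 ▸ a.2), hp⟩
  obtain ⟨w⟩ := h.conn v ⟨r, hr⟩ ⟨r', hr'⟩
  exact key _ _ w

/-- a path between two bags of a vertex inside its subtree -/
theorem path_in (h : TDec G T B) {t r : ι} {v : V} (ht : v ∈ B t) (hr : v ∈ B r) :
    ∃ p : T.Walk t r, p.IsPath ∧ ∀ s ∈ p.support, v ∈ B s := by
  classical
  have key : ∀ (a b : {t | v ∈ B t}) (w : (T.induce {t | v ∈ B t}).Walk a b),
      ∃ p : T.Walk a.1 b.1, ∀ s ∈ p.support, v ∈ B s := by
    intro a b w
    induction w with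
    | @nil a =>
      refine ⟨Walk.nil, ?_⟩
      simp only [Walk.support_nil, List.mem_singleton]
      rintro s rfl
      exact a.2
    | @cons a b c hab w ih =>
      obtain ⟨p, hp⟩ := ih
      have hab' : T.Adj a.1 b.1 := hab
      refine ⟨Walk.cons hab' p, ?_⟩
      simp only [Walk.support_cons, List.mem_cons]
      rintro s (rfl | hs)
      · exact a.2
      · exact hp s hs
  obtain ⟨w⟩ := h.conn v ⟨t, ht⟩ ⟨r, hr⟩
  obtain ⟨p, hp⟩ := key _ _ w
  exact ⟨p.bypass, p.bypass_isPath, fun s hs => hp s (p.support_bypass_subset_support hs)⟩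

/-- the first bag on the way from `t` to another bag of `v` -/
theorem first_bag (h : TDec G T B) {t r : ι} {v : V} (ht : v ∈ B t) (hr : v ∈ B r) (hne : t ≠ r) :
    ∃ s, T.Adj t s ∧ v ∈ B s ∧ ∃ p : T.Walk s r, t ∉ p.support := by
  obtain ⟨p, hp, hs⟩ := path_in h ht hr
  cases p with
  | nil => exact absurd rfl hne
  | @cons _ s _ hadj q =>
    rw [Walk.cons_isPath_iff] at hp
    refine ⟨s, hadj, hs s ?_, q, hp.2⟩
    simp

/-- a vertex of `B t` and of a bag on the side of `s` lies in `B s` -/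
theorem mem_gate (h : TDec G T B) {t s r : ι} {v : V} (ht : v ∈ B t) (hr : v ∈ B r)
    (hts : T.Adj t s) (hp : ∃ p : T.Walk s r, t ∉ p.support) : v ∈ B s := by
  classical
  obtain ⟨p, hp⟩ := hp
  obtain ⟨q, hq, hs⟩ := path_in h ht hr
  have hp' : t ∉ p.bypass.support := fun h1 => hp (p.support_bypass_subset_support h1)
  have h2 : (Walk.cons hts p.bypass).IsPath := by
    rw [Walk.cons_isPath_iff]
    exact ⟨p.bypass_isPath, hp'⟩
  have h3 : q = Walk.cons hts p.bypass := by
    have := h.tree.isAcyclic.subsingleton_path t r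
    exact congrArg Subtype.val (Subsingleton.elim (⟨q, hq⟩ : T.Path t r) ⟨_, h2⟩)
  refine hs s ?_
  rw [h3]
  simp

theorem conn : ConnStmt := by
  intro V ι _ _ G T B t A h hA hne
  classical
  have key : ∀ (c v : A) (w : (G.induce A).Walk c v), ∀ (hv : v.1 ∈ B t) (g : V)
      (hgA : g ∈ A) (hgt : g ∈ B t),
      (c.1 = g ∨ (c.1 ∉ B t ∧ ∃ s, T.Adj t s ∧ g ∈ B s ∧ ∃ r, c.1 ∈ B r ∧
        ∃ p : T.Walk s r, t ∉ p.support)) →
      ((tor G T B t).induce (A ∩ B t)).Reachable ⟨g, hgA, hgt⟩ ⟨v.1, v.2, hv⟩ := by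
    intro c v w
    induction w with
    | @nil c =>
      rintro hv g hgA hgt (h1 | ⟨h1, -⟩)
      · subst h1
        exact Reachable.refl _
      · exact absurd hv h1
    | @cons c c' v hcc' w ih =>
      intro hv g hgA hgt hst
      have hadj : G.Adj c.1 c'.1 := hcc'
      obtain ⟨r, hcr, hcr'⟩ := h.edge _ _ hadj
      by_cases hc't : c'.1 ∈ B t
      · -- the next vertex lies in the bag
        have h1 := ih hv c'.1 c'.2 hc't (Or.inl rfl)
        refine Reachable.trans ?_ h1
        by_cases hgc : g = c'.1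
        · subst hgc
          exact Reachable.refl _
        · apply Adj.reachable
          show (tor G T B t).Adj g c'.1
          refine ⟨hgc, hgt, hc't, ?_⟩
          rcases hst with h2 | ⟨h2, s, hts, hgs, r0, hr0, hp⟩
          · left
            rw [← h2]
            exact hadj
          · right
            obtain ⟨p, hp⟩ := hp
            obtain ⟨q, hq⟩ := walk_avoid h h2 hr0 hcr
            refine ⟨s, hts, hgs, mem_gate h hc't hcr' hts ⟨p.append q, ?_⟩⟩
            rw [Walk.mem_support_append_iff]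
            exact not_or.2 ⟨hp, hq⟩
      · -- the next vertex does not lie in the bag
        refine ih hv g hgA hgt (Or.inr ⟨hc't, ?_⟩)
        rcases hst with h2 | ⟨h2, s, hts, hgs, r0, hr0, hp⟩
        · have hne' : t ≠ r := fun h3 => hc't (h3 ▸ hcr')
          rw [h2] at hcr
          obtain ⟨s, hts, hgs, hp⟩ := first_bag h hgt hcr hne'
          exact ⟨s, hts, hgs, r, hcr', hp⟩
        · obtain ⟨p, hp⟩ := hp
          obtain ⟨q, hq⟩ := walk_avoid h h2 hr0 hcr
          refine ⟨s, hts, hgs, r, hcr', p.append q, ?_⟩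
          rw [Walk.mem_support_append_iff]
          exact not_or.2 ⟨hp, hq⟩
  have : Nonempty (A ∩ B t : Set V) := hne.to_subtype
  refine Connected.mk ?_
  rintro ⟨u, huA, hut⟩ ⟨v, hvA, hvt⟩
  obtain ⟨w⟩ := hA.preconnected ⟨u, huA⟩ ⟨v, hvA⟩
  exact key _ _ w hvt u huA hut (Or.inl rfl)

end Vale.Agent.P235.H535
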