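import Vale.Agent.P235.H206.SurfTop
import Vale.Agent.P235.H134.Grid.Defs

/-!
# [G6]: a graph with a rotation system of Euler genus at most `g` has no `K_{3,2g+7}` minor
(helper535)

Cycles modulo 2 of the model are compared with boundaries of sets of faces: the faces are merged
across all edges outside the model, every class of faces then has a boundary which is a cycle of
`K_{3,m}`, so it is zero or has at least four edges, and every edge lies in at most two of them.
-/

set_option autoImplicit false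

namespace Vale.Agent.P235.H535

open Finset Vale.Agent.P235 Vale.Agent.P235.H206 Vale.Agent.P235.H134

section pure

variable {α β : Type} [Fintype α] [Fintype β] [DecidableEq α] [DecidableEq β]

theorem other_ne {γ : Type} [Fintype γ] (f : γ → ZMod 2) (hf : ∑ x, f x = 0) (a : γ)
    (ha : f a ≠ 0) : ∃ b, b ≠ a ∧ f b ≠ 0 := by
  by_contra hno
  push Not at hno
  apply ha
  rw [← hf]
  exact (Finset.sum_eq_single a (fun b _ hb => hno b hb) (fun h => absurd (mem_univ a) h)).symm

/-- a nonzero vector with zero row and column sums has at least four nonzero entries -/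
theorem four_le {w : α × β → ZMod 2} (hr : ∀ i, ∑ j, w (i, j) = 0) (hc : ∀ j, ∑ i, w (i, j) = 0)
    (hw : w ≠ 0) : 4 ≤ (univ.filter fun p => w p ≠ 0).card := by
  obtain ⟨⟨i, j⟩, hij⟩ : ∃ p, w p ≠ 0 := by
    by_contra hno
    push Not at hno
    exact hw (funext hno)
  obtain ⟨j', hj', h1⟩ := other_ne (fun j => w (i, j)) (hr i) j hij
  obtain ⟨i', hi', h2⟩ := other_ne (fun i => w (i, j)) (hc j) i hij
  obtain ⟨i'', hi'', h3⟩ := other_ne (fun i => w (i, j')) (hc j') i h1
  have hsub : ({(i, j), (i, j'), (i', j), (i'', j')} : Finset (α × β)) ⊆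
      univ.filter fun p => w p ≠ 0 := by
    intro p hp
    simp only [mem_insert, mem_singleton] at hp
    rw [mem_filter]
    refine ⟨mem_univ _, ?_⟩
    rcases hp with rfl | rfl | rfl | rfl
    exacts [hij, h1, h2, h3]
  refine le_trans (le_of_eq ?_) (card_le_card hsub)
  have e1 : (i, j) ∉ ({(i, j'), (i', j), (i'', j')} : Finset (α × β)) := by
    simp [hj'.symm, hi'.symm]
  have e2 : (i, j') ∉ ({(i', j), (i'', j')} : Finset (α × β)) := by
    simp [hj', hi''.symm]
  have e3 : (i', j) ∉ ({(i'', j')} : Finset (α × β)) := by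
    simp [hj'.symm]
  rw [card_insert_of_notMem e1, card_insert_of_notMem e2, card_insert_of_notMem e3, card_singleton]

variable {Q : Type} [Fintype Q] [DecidableEq Q]

/-- the boundary of a set of classes of faces, on the edges of the model -/
def Psi (a b : α × β → Q) : (Q → ZMod 2) →ₗ[ZMod 2] (α × β → ZMod 2) where
  toFun u p := u (a p) + u (b p)
  map_add' x y := by
    funext p
    simp only [Pi.add_apply]
    ring
  map_smul' c x := by
    funext p
    simp only [Pi.smul_apply, smul_eq_mul, RingHom.id_apply]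
    ring

theorem rank_le (a b : α × β → Q)
    (hrow : ∀ (u : Q → ZMod 2) i, ∑ j, (u (a (i, j)) + u (b (i, j))) = 0)
    (hcol : ∀ (u : Q → ZMod 2) j, ∑ i, (u (a (i, j)) + u (b (i, j))) = 0) :
    4 * Module.finrank (ZMod 2) (LinearMap.range (Psi a b)) ≤ 2 * Fintype.card (α × β) := by
  classical
  let v : Q → (α × β → ZMod 2) := fun q => Psi a b (Pi.single q 1)
  let S : Finset Q := univ.filter fun q => v q ≠ 0
  have hrange : LinearMap.range (Psi a b) ≤
      Submodule.span (ZMod 2) ((S.image v : Finset (α × β → ZMod 2)) : Set (α × β → ZMod 2)) := by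
    rintro _ ⟨u, rfl⟩
    have hu : u = ∑ q, u q • (Pi.single q 1 : Q → ZMod 2) := by
      funext x
      simp [Finset.sum_apply, Pi.single_apply]
    rw [hu, map_sum]
    refine Submodule.sum_mem _ fun q _ => ?_
    rw [map_smul]
    refine Submodule.smul_mem _ _ ?_
    by_cases hq : v q = 0
    · show v q ∈ _
      rw [hq]
      exact Submodule.zero_mem _
    · refine Submodule.subset_span ?_
      rw [Finset.mem_coe, Finset.mem_image]
      exact ⟨q, by rw [mem_filter]; exact ⟨mem_univ _, hq⟩, rfl⟩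
  have h1 : Module.finrank (ZMod 2) (LinearMap.range (Psi a b)) ≤ S.card := by
    refine (Submodule.finrank_mono hrange).trans ?_
    exact (finrank_span_finset_le_card _).trans Finset.card_image_le
  have h2 : ∀ q ∈ S, 4 ≤ ∑ p, if v q p ≠ 0 then 1 else 0 := by
    intro q hq
    rw [mem_filter] at hq
    rw [← Finset.card_filter]
    exact four_le (fun i => hrow (Pi.single q 1) i) (fun j => hcol (Pi.single q 1) j) hq.2
  have h3 : ∀ p, (∑ q, if v q p ≠ 0 then 1 else 0) ≤ 2 := by
    intro p
    rw [← Finset.card_filter]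
    have : (univ.filter fun q => v q p ≠ 0) ⊆ {a p, b p} := by
      intro q hq
      rw [mem_filter] at hq
      rw [mem_insert, mem_singleton]
      by_contra hno
      rw [not_or] at hno
      apply hq.2
      show (Pi.single q 1 : Q → ZMod 2) (a p) + (Pi.single q 1 : Q → ZMod 2) (b p) = 0
      rw [Pi.single_eq_of_ne (fun h => hno.1 h.symm), Pi.single_eq_of_ne (fun h => hno.2 h.symm),
        add_zero]
    exact (card_le_card this).trans card_le_two
  calc 4 * Module.finrank (ZMod 2) (LinearMap.range (Psi a b)) ≤ 4 * S.card := by omega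
    _ = ∑ q ∈ S, 4 := by rw [sum_const, smul_eq_mul, mul_comm]
    _ ≤ ∑ q ∈ S, ∑ p, (if v q p ≠ 0 then 1 else 0) := Finset.sum_le_sum h2
    _ ≤ ∑ q, ∑ p, (if v q p ≠ 0 then 1 else 0) :=
        Finset.sum_le_sum_of_subset (Finset.subset_univ _)
    _ = ∑ p, ∑ q, (if v q p ≠ 0 then 1 else 0) := Finset.sum_comm
    _ ≤ ∑ _p : α × β, 2 := Finset.sum_le_sum fun p _ => h3 p
    _ = 2 * Fintype.card (α × β) := by
        rw [sum_const, smul_eq_mul, mul_comm]
        rfl

/-- row and column sums -/
def sums (α β : Type) [Fintype α] [Fintype β] :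
    (α × β → ZMod 2) →ₗ[ZMod 2] ((α → ZMod 2) × (β → ZMod 2)) where
  toFun w := (fun i => ∑ j, w (i, j), fun j => ∑ i, w (i, j))
  map_add' x y := by
    simp only [Pi.add_apply, Finset.sum_add_distrib]
    rfl
  map_smul' c x := by
    simp only [Pi.smul_apply, smul_eq_mul, RingHom.id_apply, ← Finset.mul_sum]
    rfl

omit [DecidableEq α] [DecidableEq β] in
theorem finrank_cycles :
    Fintype.card (α × β) ≤ Module.finrank (ZMod 2) (LinearMap.ker (sums α β)) +
      (Fintype.card α + Fintype.card β) := by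
  have h1 := LinearMap.finrank_range_add_finrank_ker (sums α β)
  have h2 := Submodule.finrank_le (LinearMap.range (sums α β))
  rw [Module.finrank_prod, Module.finrank_fintype_fun_eq_card,
    Module.finrank_fintype_fun_eq_card] at h2
  rw [Module.finrank_fintype_fun_eq_card] at h1
  omega

end pure

section graph

variable {V : Type} {G : SimpleGraph V}

/-- a walk inside a connected set -/
theorem walk_in {s : Set V} (hs : (G.induce s).Connected) {u v : V} (hu : u ∈ s) (hv : v ∈ s) :
    ∃ p : G.Walk u v, ∀ z ∈ p.support, z ∈ s := by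
  have key : ∀ (a b : s) (w : (G.induce s).Walk a b),
      ∃ p : G.Walk a.1 b.1, ∀ z ∈ p.support, z ∈ s := by
    intro a b w
    induction w with
    | @nil a =>
      refine ⟨SimpleGraph.Walk.nil, ?_⟩
      simp only [SimpleGraph.Walk.support_nil, List.mem_singleton]
      rintro z rfl
      exact a.2
    | @cons a b c hab w ih =>
      obtain ⟨p, hp⟩ := ih
      have hab' : G.Adj a.1 b.1 := hab
      refine ⟨SimpleGraph.Walk.cons hab' p, ?_⟩
      simp only [SimpleGraph.Walk.support_cons, List.mem_cons]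
      rintro z (rfl | hz)
      · exact a.2
      · exact hp z hz
  obtain ⟨w⟩ := hs.preconnected ⟨u, hu⟩ ⟨v, hv⟩
  exact key _ _ w

variable [Fintype V] [DecidableEq V] [Fintype G.Dart] {σ : Equiv.Perm G.Dart}

/-- the boundary of a set of faces, summed over the darts leaving a set of vertices -/
theorem cut_sum (hσ : ∀ d, (σ d).fst = d.fst) (s : Faces G σ → ZMod 2) {M : Set V} {ι : Type}
    [Fintype ι] (E : ι → G.Dart) (hE : Function.Injective E) (h1 : ∀ k, (E k).fst ∈ M)
    (h2 : ∀ k, (E k).snd ∉ M)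
    (h3 : ∀ d : G.Dart, d.fst ∈ M → d.snd ∉ M → (∀ k, E k ≠ d) → s ⟦d⟧ = s ⟦d.symm⟧) :
    ∑ k, (s ⟦E k⟧ + s ⟦(E k).symm⟧) = 0 := by
  classical
  let t : G.Dart → ZMod 2 := fun d => s ⟦d⟧ + s ⟦d.symm⟧
  have hb : ∀ v, ∑ d : G.Dart with d.fst = v, t d = 0 := by
    intro v
    have h4 := congrFun (bd_cb hσ s) v
    have h5 : ∑ d : G.Dart with d.fst = v, cb σ s (eOf d) = 0 := h4
    simpa only [cb_apply] using h5
  have e1 : ∑ d : G.Dart with d.fst ∈ M, t d = 0 := by
    rw [Finset.sum_filter, ← Finset.sum_fiberwise univ (fun d : G.Dart => d.fst)]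
    refine Finset.sum_eq_zero fun v _ => ?_
    by_cases hv : v ∈ M
    · rw [← hb v]
      refine Finset.sum_congr rfl fun d hd => ?_
      rw [mem_filter] at hd
      rw [if_pos (by rw [hd.2]; exact hv)]
    · refine Finset.sum_eq_zero fun d hd => ?_
      rw [mem_filter] at hd
      rw [if_neg (by rw [hd.2]; exact hv)]
  have e2 : ∑ d : G.Dart with d.fst ∈ M ∧ d.snd ∈ M, t d = 0 := by
    have h6 : ∑ d : G.Dart with d.fst ∈ M ∧ d.snd ∈ M, s ⟦d.symm⟧ =
        ∑ d : G.Dart with d.fst ∈ M ∧ d.snd ∈ M, s (⟦d⟧ : Faces G σ) := by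
      refine Finset.sum_bij (fun d _ => d.symm) ?_ ?_ ?_ ?_
      · intro d hd
        simp only [mem_filter, mem_univ, true_and] at hd ⊢
        exact ⟨hd.2, hd.1⟩
      · intro d _ d' _ h
        exact SimpleGraph.Dart.symm_involutive.injective h
      · intro d hd
        refine ⟨d.symm, ?_, SimpleGraph.Dart.symm_symm d⟩
        simp only [mem_filter, mem_univ, true_and] at hd ⊢
        exact ⟨hd.2, hd.1⟩
      · intro d _
        rfl
    show ∑ d : G.Dart with d.fst ∈ M ∧ d.snd ∈ M, (s ⟦d⟧ + s ⟦d.symm⟧) = 0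
    rw [Finset.sum_add_distrib, h6]
    exact CharTwo.add_self_eq_zero _
  have e3 : ∑ d : G.Dart with d.fst ∈ M ∧ d.snd ∉ M, t d = 0 := by
    have h7 : ∑ d : G.Dart with d.fst ∈ M, t d =
        ∑ d : G.Dart with d.fst ∈ M ∧ d.snd ∈ M, t d +
          ∑ d : G.Dart with d.fst ∈ M ∧ d.snd ∉ M, t d := by
      rw [← Finset.sum_filter_add_sum_filter_not (univ.filter fun d : G.Dart => d.fst ∈ M)
        (fun d => d.snd ∈ M), Finset.filter_filter, Finset.filter_filter]
    rw [e1, e2, zero_add] at h7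
    exact h7.symm
  have e4 : ∑ d ∈ univ.image E, t d = ∑ d : G.Dart with d.fst ∈ M ∧ d.snd ∉ M, t d := by
    refine Finset.sum_subset ?_ ?_
    · intro d hd
      rw [mem_image] at hd
      obtain ⟨k, -, rfl⟩ := hd
      rw [mem_filter]
      exact ⟨mem_univ _, h1 k, h2 k⟩
    · intro d hd hno
      rw [mem_filter] at hd
      show s ⟦d⟧ + s ⟦d.symm⟧ = 0
      rw [h3 d hd.2.1 hd.2.2 fun k hk => hno (mem_image.2 ⟨k, mem_univ _, hk⟩)]
      exact CharTwo.add_self_eq_zero _
  rw [Finset.sum_image fun a _ b _ h => hE h, e3] at e4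
  exact e4

/-- **[G6]** in general form -/
theorem surf_model {g : ℕ} (hG : G.Connected) (hσ : SurfMap g G σ) {α β : Type} [Fintype α]
    [Fintype β] [DecidableEq α] [DecidableEq β] (μ : α ⊕ β → Set V)
    (hc : ∀ a, (G.induce (μ a)).Connected) (hd : ∀ a b, a ≠ b → Disjoint (μ a) (μ b))
    (hadj : ∀ i j, ∃ x ∈ μ (Sum.inl i), ∃ y ∈ μ (Sum.inr j), G.Adj x y) :
    2 * Fintype.card (α × β) ≤ 4 * (Fintype.card α + Fintype.card β + g) := by
  classical
  have hfin : Finite G.edgeSet := Finite.of_surjective (fun d : G.Dart => eOf d) exists_dart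
  -- darts of the model
  choose x hx y hy hxy using hadj
  let D : α × β → G.Dart := fun p => ⟨(x p.1 p.2, y p.1 p.2), hxy p.1 p.2⟩
  have hl : ∀ p : α × β, (D p).fst ∈ μ (Sum.inl p.1) := fun p => hx p.1 p.2
  have hr : ∀ p : α × β, (D p).snd ∈ μ (Sum.inr p.2) := fun p => hy p.1 p.2
  have uniq : ∀ {a b : α ⊕ β} {v : V}, v ∈ μ a → v ∈ μ b → a = b := by
    intro a b v ha hb
    by_contra hne
    exact Set.disjoint_left.1 (hd a b hne) ha hb
  have hDinj : ∀ p p', (D p).fst ∈ μ (Sum.inl p'.1) → (D p).snd ∈ μ (Sum.inr p'.2) → p = p' := by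
    intro p p' h1 h2
    exact Prod.ext (Sum.inl_injective (uniq (hl p) h1)) (Sum.inr_injective (uniq (hr p) h2))
  let K : G.Dart → Prop := fun d => (∃ a, d.fst ∈ μ a ∧ d.snd ∈ μ a) ∨
    ∃ p, D p = d ∨ (D p).symm = d
  -- classes of faces
  let r : Faces G σ → Faces G σ → Prop := fun f f' => ∃ d : G.Dart, ¬ K d ∧ f = ⟦d⟧ ∧ f' = ⟦d.symm⟧
  have : Finite (Faces G σ) := inferInstance
  have : Finite (Quot r) := Finite.of_surjective (Quot.mk r) Quot.mk_surjective
  have : Fintype (Quot r) := Fintype.ofFinite _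
  let a : α × β → Quot r := fun p => Quot.mk r ⟦D p⟧
  let b : α × β → Quot r := fun p => Quot.mk r ⟦(D p).symm⟧
  have hout : ∀ (u : Quot r → ZMod 2) (d : G.Dart), ¬ K d →
      u (Quot.mk r ⟦d⟧) = u (Quot.mk r ⟦d.symm⟧) := by
    intro u d hdK
    exact congrArg u (Quot.sound ⟨d, hdK, rfl, rfl⟩)
  have hrow : ∀ (u : Quot r → ZMod 2) i, ∑ j, (u (a (i, j)) + u (b (i, j))) = 0 := by
    intro u i
    refine cut_sum hσ.fst (fun f => u (Quot.mk r f)) (M := μ (Sum.inl i)) (fun j => D (i, j))
      ?_ (fun j => hl (i, j)) ?_ ?_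
    · intro j j' h
      have h1 := hr (i, j)
      rw [show D (i, j) = D (i, j') from h] at h1
      exact Sum.inr_injective (uniq h1 (hr (i, j')))
    · intro j h
      exact Sum.inl_ne_inr (uniq h (hr (i, j)))
    · intro d h1 h2 h3
      refine hout u d ?_
      rintro (⟨c, hc1, hc2⟩ | ⟨p, hp | hp⟩)
      · rw [← uniq h1 hc1] at hc2
        exact h2 hc2
      · subst hp
        have h4 : p.1 = i := Sum.inl_injective (uniq (hl p) h1)
        subst h4
        exact h3 p.2 rfl
      · subst hp
        exact Sum.inl_ne_inr (uniq h1 (hr p))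
  have hcol : ∀ (u : Quot r → ZMod 2) j, ∑ i, (u (a (i, j)) + u (b (i, j))) = 0 := by
    intro u j
    have h0 := cut_sum hσ.fst (fun f => u (Quot.mk r f)) (M := μ (Sum.inr j))
      (fun i => (D (i, j)).symm)
      (by
        intro i i' h
        have h' : D (i, j) = D (i', j) := SimpleGraph.Dart.symm_involutive.injective h
        have h1 := hl (i, j)
        rw [h'] at h1
        exact Sum.inl_injective (uniq h1 (hl (i', j))))
      (fun i => hr (i, j))
      (by
        intro i h
        exact Sum.inl_ne_inr (uniq (hl (i, j)) h))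
      (by
        intro d h1 h2 h3
        refine hout u d ?_
        rintro (⟨c, hc1, hc2⟩ | ⟨p, hp | hp⟩)
        · rw [← uniq h1 hc1] at hc2
          exact h2 hc2
        · subst hp
          exact Sum.inl_ne_inr (uniq (hl p) h1)
        · subst hp
          have h4 : p.2 = j := Sum.inr_injective (uniq (hr p) h1)
          subst h4
          exact h3 p.1 rfl)
    rw [← h0]
    refine Finset.sum_congr rfl fun i _ => ?_
    show u (Quot.mk r ⟦D (i, j)⟧) + u (Quot.mk r ⟦(D (i, j)).symm⟧) =
      u (Quot.mk r ⟦(D (i, j)).symm⟧) + u (Quot.mk r ⟦(D (i, j)).symm.symm⟧)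
    rw [SimpleGraph.Dart.symm_symm, add_comm]
  have hrank := rank_le a b hrow hcol
  have hcyc := finrank_cycles (α := α) (β := β)
  -- lifts of the cycles
  have hb0 : ∀ c, ∃ v, v ∈ μ c := fun c => by
    obtain ⟨v⟩ := (hc c).nonempty
    exact ⟨v.1, v.2⟩
  choose base hbase using hb0
  have hwl : ∀ p : α × β, ∃ w : G.Walk (base (Sum.inl p.1)) (D p).fst,
      ∀ z ∈ w.support, z ∈ μ (Sum.inl p.1) := fun p => walk_in (hc _) (hbase _) (hl p)
  have hwr : ∀ p : α × β, ∃ w : G.Walk (D p).snd (base (Sum.inr p.2)),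
      ∀ z ∈ w.support, z ∈ μ (Sum.inr p.2) := fun p => walk_in (hc _) (hr p) (hbase _)
  choose wl hwl using hwl
  choose wr hwr using hwr
  let P : ∀ p : α × β, G.Walk (base (Sum.inl p.1)) (base (Sum.inr p.2)) := fun p =>
    (wl p).append (SimpleGraph.Walk.cons (D p).adj (wr p))
  have hchain : ∀ p (d : G.Dart), ¬ (d.fst ∈ μ (Sum.inl p.1) ∧ d.snd ∈ μ (Sum.inl p.1)) →
      ¬ (d.fst ∈ μ (Sum.inr p.2) ∧ d.snd ∈ μ (Sum.inr p.2)) →
      chain (P p) (eOf d) = if (D p).edge = d.edge then 1 else 0 := by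
    intro p d h1 h2
    have e1 : d.edge ∉ (wl p).edges := fun h =>
      h1 ⟨hwl p _ ((wl p).fst_mem_support_of_mem_edges h),
        hwl p _ ((wl p).snd_mem_support_of_mem_edges h)⟩
    have e2 : d.edge ∉ (wr p).edges := fun h =>
      h2 ⟨hwr p _ ((wr p).fst_mem_support_of_mem_edges h),
        hwr p _ ((wr p).snd_mem_support_of_mem_edges h)⟩
    show (((P p).edges.count d.edge : ℕ) : ZMod 2) = _
    have e3 : (P p).edges = (wl p).edges ++ ((D p).edge :: (wr p).edges) := by
      show ((wl p).append (SimpleGraph.Walk.cons (D p).adj (wr p))).edges = _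
      rw [SimpleGraph.Walk.edges_append, SimpleGraph.Walk.edges_cons]
      rfl
    rw [e3, List.count_append, List.count_eq_zero_of_not_mem e1, List.count_cons,
      List.count_eq_zero_of_not_mem e2, zero_add, zero_add]
    by_cases h : (D p).edge = d.edge
    · rw [if_pos h, if_pos (beq_iff_eq.2 h)]
      simp
    · rw [if_neg h, if_neg (fun h' => h (beq_iff_eq.1 h'))]
      simp
  have hedge : ∀ {p : α × β} {d : G.Dart}, (D p).edge = d.edge → D p = d ∨ (D p).symm = d := by
    intro p d h
    rcases SimpleGraph.dart_edge_eq_iff _ _ |>.mp h with h | h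
    · exact Or.inl h
    · right
      rw [h, SimpleGraph.Dart.symm_symm]
  have hoff : ∀ p (d : G.Dart), ¬ K d → chain (P p) (eOf d) = 0 := by
    intro p d hdK
    rw [hchain p d (fun h => hdK (Or.inl ⟨_, h⟩)) (fun h => hdK (Or.inl ⟨_, h⟩)), if_neg]
    intro h
    exact hdK (Or.inr ⟨p, hedge h⟩)
  have hon : ∀ p p', chain (P p) (eOf (D p')) = if p = p' then 1 else 0 := by
    intro p p'
    rw [hchain p (D p') (fun h => Sum.inl_ne_inr (uniq h.2 (hr p')))
      (fun h => Sum.inl_ne_inr (uniq (hl p') h.1))]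
    by_cases h : p = p'
    · rw [if_pos h, if_pos (by rw [h])]
    · rw [if_neg h, if_neg]
      intro h'
      rcases hedge h' with h1 | h1
      · apply h
        refine hDinj p p' ?_ ?_
        · rw [h1]; exact hl p'
        · rw [h1]; exact hr p'
      · have h2 : (D p).symm.fst ∈ μ (Sum.inl p'.1) := by rw [h1]; exact hl p'
        exact Sum.inl_ne_inr (uniq h2 (hr p))
  let L : (α × β → ZMod 2) →ₗ[ZMod 2] (G.edgeSet → ZMod 2) :=
    Fintype.linearCombination (ZMod 2) fun p => chain (P p)
  have hL : ∀ ζ, L ζ = ∑ p, ζ p • chain (P p) := fun ζ =>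
    Fintype.linearCombination_apply (ZMod 2) _ ζ
  have hLoff : ∀ ζ (d : G.Dart), ¬ K d → L ζ (eOf d) = 0 := by
    intro ζ d hdK
    rw [hL, Finset.sum_apply]
    refine Finset.sum_eq_zero fun p _ => ?_
    rw [Pi.smul_apply, hoff p d hdK, smul_zero]
  have hLon : ∀ ζ p, L ζ (eOf (D p)) = ζ p := by
    intro ζ p
    rw [hL, Finset.sum_apply, Finset.sum_eq_single p]
    · rw [Pi.smul_apply, hon, if_pos rfl, smul_eq_mul, mul_one]
    · intro p' _ hne
      rw [Pi.smul_apply, hon, if_neg hne, smul_zero]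
    · intro h
      exact absurd (mem_univ p) h
  have hbd : ∀ ζ ∈ LinearMap.ker (sums α β), bd G (L ζ) = 0 := by
    intro ζ hζ
    have hs := LinearMap.mem_ker.1 hζ
    have hs1 : ∀ i, ∑ j, ζ (i, j) = 0 := fun i => congrFun (congrArg Prod.fst hs) i
    have hs2 : ∀ j, ∑ i, ζ (i, j) = 0 := fun j => congrFun (congrArg Prod.snd hs) j
    rw [hL, map_sum]
    have e1 : ∀ p : α × β, bd G (ζ p • chain (P p)) =
        ζ p • (Pi.single (base (Sum.inl p.1)) 1 : V → ZMod 2) +
          ζ p • (Pi.single (base (Sum.inr p.2)) 1 : V → ZMod 2) := by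
      intro p
      rw [map_smul, bd_chain, smul_add]
    rw [Finset.sum_congr rfl fun p _ => e1 p, Finset.sum_add_distrib, Fintype.sum_prod_type,
      Fintype.sum_prod_type_right]
    simp only [← Finset.sum_smul, hs1, hs2, zero_smul, Finset.sum_const_zero, add_zero]
  -- cycles which are boundaries come from classes of faces
  have hkey : ∀ ζ (s : Faces G σ → ZMod 2), (∀ d : G.Dart, L ζ (eOf d) = s ⟦d⟧ + s ⟦d.symm⟧) →
      ζ ∈ LinearMap.range (Psi a b) := by
    intro ζ s hs
    have hs' : ∀ f f', r f f' → s f = s f' := by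
      rintro f f' ⟨d, hdK, rfl, rfl⟩
      have h1 := hs d
      rw [hLoff ζ d hdK] at h1
      exact CharTwo.add_eq_zero.1 h1.symm
    refine ⟨Quot.lift s hs', ?_⟩
    funext p
    show s ⟦D p⟧ + s ⟦(D p).symm⟧ = ζ p
    rw [← hs, hLon]
  -- dimensions
  obtain ⟨R, hR⟩ := Submodule.exists_isCompl (LinearMap.range (Psi a b))
  have hRdim := Submodule.finrank_add_eq_of_isCompl hR
  have hinf := Submodule.finrank_sup_add_finrank_inf_eq (LinearMap.ker (sums α β)) R
  have hsup := Submodule.finrank_le (LinearMap.ker (sums α β) ⊔ R)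
  have hE : Module.finrank (ZMod 2) (LinearMap.ker (sums α β) ⊓ R : Submodule (ZMod 2) _) ≤ g := by
    by_contra hlt
    push Not at hlt
    let B := Module.finBasis (ZMod 2) (LinearMap.ker (sums α β) ⊓ R : Submodule (ZMod 2) _)
    obtain ⟨c, hc0, s, hs⟩ := exists_faces_comb hG hσ hlt (fun i => L (B i).1)
      (fun i => hbd _ (B i).2.1)
    let ζ : (LinearMap.ker (sums α β) ⊓ R : Submodule (ZMod 2) _) := ∑ i, c i • B i
    have h1 : ζ.1 ∈ LinearMap.range (Psi a b) := by
      refine hkey ζ.1 s fun d => ?_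
      rw [← hs]
      have h2 : L ζ.1 = ∑ i, c i • L (B i).1 := by
        show L (Submodule.subtype _ (∑ i, c i • B i)) = _
        rw [map_sum, map_sum]
        refine Finset.sum_congr rfl fun i _ => ?_
        rw [map_smul, map_smul]
        rfl
      rw [h2, Finset.sum_apply]
      refine Finset.sum_congr rfl fun i _ => ?_
      rw [Pi.smul_apply, smul_eq_mul]
    have h3 : ζ.1 = 0 := by
      have := Submodule.mem_inf.2 ⟨h1, ζ.2.2⟩
      rw [hR.inf_eq_bot] at this
      exact (Submodule.mem_bot _).1 this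
    apply hc0
    have h4 : ζ = 0 := Subtype.ext h3
    funext i
    exact Fintype.linearIndependent_iff.1 B.linearIndependent c h4 i
  rw [Module.finrank_fintype_fun_eq_card] at hRdim hsup
  omega

end graph

/-- **[G6]**: graphs of Euler genus at most `g` have no `K_{3,2g+7}` minor. -/
theorem surf_no {V : Type} [Finite V] {G : SimpleGraph V} {g : ℕ} {σ : Equiv.Perm G.Dart}
    (hG : G.Connected) (hσ : SurfMap g G σ) :
    ¬ IsMinor (completeBipartiteGraph (Fin 3) (Fin (2 * g + 7))) G := by
  classical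
  rintro ⟨μ, h1, h2, h3⟩
  have hfV := Fintype.ofFinite V
  have : Finite G.Dart := Finite.of_injective (fun d : G.Dart => d.toProd)
    SimpleGraph.Dart.toProd_injective
  have hfD := Fintype.ofFinite G.Dart
  have h := surf_model hG hσ μ h1 h2 fun i j => h3 _ _ (by simp [completeBipartiteGraph])
  rw [Fintype.card_prod, Fintype.card_fin, Fintype.card_fin] at h
  omega

end Vale.Agent.P235.H535
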